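import Vale.Agent.P144Y.Defs
import Vale.Agent.P144T.All
import Vale.Agent.P144S.L.Lat
import Vale.Agent.P144S.V.Sand

/-!
The outside of a domain of the class is locally connected, on the lattice and in the continuum;
finitely many points represent the components of the complement.
-/

namespace Vale.Agent.P144Y.L

open Filter Topology Metric Vale.Agent.P144
open Vale.Agent.P144.H170 (pt pt_fl_norm)
open Vale.Agent.P144S.L (C4 chart4_c4 chart_join lip3_of_lip4)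
open Vale.Agent.P144S.V (rn_of fl_pt small0)

theorem cn_of_c4 {D : Set ℂ} (hb : Bornology.IsBounded D) {a : ℝ} (ha : 0 < a) {v w : Site}
    (h : C4 D a v w) : Cn (disc D a) v w := by
  induction h with
  | refl => exact .refl
  | @tail x y _ h2 ih =>
    by_cases e : x = y
    · exact e ▸ ih
    · refine ih.tail ⟨fun hy => h2.2.1 ((mem_disc hb ha _).1 hy), le_antisymm h2.2.2 ?_⟩
      by_contra hc
      have b1 := abs_nonneg (x.1 - y.1)
      have b2 := abs_nonneg (x.2 - y.2)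
      exact e (Prod.ext (sub_eq_zero.1 (abs_eq_zero.1 (by lia)))
        (sub_eq_zero.1 (abs_eq_zero.1 (by lia))))

/-- The lattice approximation. -/
theorem slat : SLat := by
  intro D hD
  refine ⟨P144T.lat3 (lip3_of_lip4 hD), ?_⟩
  obtain ⟨hop, hb, γ, r, hγ, hr, h⟩ := hD
  refine ⟨γ * r / 8, by positivity, ?_⟩
  filter_upwards [Ioc_mem_nhdsGT (show 0 < min (γ * r / 32) (r / 1000) by positivity)]
    with a ha v hv w hw e
  rw [mem_disc hb ha.1] at hv hw
  obtain ⟨u, hu⟩ := chart4_c4 (h (pt a w)) hr ha.1 (ha.2.trans (min_le_left _ _))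
    (ha.2.trans (min_le_right _ _))
  exact cn_of_c4 hb ha.1
    ((hu v hv e).trans (hu w hw (by rw [sub_self, norm_zero]; positivity)).symm)

/-- The outside is locally connected. -/
theorem sout : SOut := by
  rintro D ⟨hop, hb, γ, r, hγ, hr, h⟩ hne
  refine ⟨γ * r / 8, by positivity, fun ε hε => ?_⟩
  obtain ⟨η, η0, η1, η2⟩ : ∃ η, 0 < η ∧ η ≤ ε ∧ η ≤ γ * r / 16 :=
    ⟨min ε (γ * r / 16), by positivity, min_le_left _ _, min_le_right _ _⟩
  refine ⟨γ * η / 4, by positivity, fun z w e hz hw => ?_⟩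
  obtain ⟨u, hu⟩ := chart_join (h w) hne hγ hr η0 η2
  exact (hu z (η1.trans hz) e).trans
    (hu w (η1.trans hw) (by rw [sub_self, norm_zero]; positivity)).symm

/-- The lattice point of a point outside the closure is outside. -/
theorem fl_out {D : Set ℂ} {P : ℝ → Finset Site} (hP : Fam0 D P) {t : ℂ} (ht : t ∉ closure D) :
    ∀ᶠ a in 𝓝[>] (0 : ℝ), fl a t ∉ P a := by
  obtain ⟨ε, hε, h⟩ := Metric.mem_nhds_iff.1 (isClosed_closure.isOpen_compl.mem_nhds ht)
  filter_upwards [hP.sub (ε / 4) (by positivity), small0 (s := ε / 4) (by positivity)]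
    with a h1 ⟨h2, h3⟩ hx
  obtain ⟨z, hz, h4⟩ := h1 _ hx
  refine h ?_ (subset_closure hz)
  rw [mem_ball, dist_eq_norm]
  have := norm_sub_le_norm_sub_add_norm_sub z (pt a (fl a t)) t
  rw [norm_sub_rev z (pt a _)] at this
  linarith [pt_fl_norm h2 t]

/-- Far sites are connected to sites at a moderate distance. -/
theorem inward {D : Set ℂ} {P : ℝ → Finset Site} (hs : D ⊆ ball 0 (1 / 4)) (hP : Fam0 D P) :
    ∀ᶠ a in 𝓝[>] (0 : ℝ), ∀ v ∉ P a, ∃ w ∉ P a, Cn (P a) v w ∧ ‖pt a w‖ ≤ 11 / 32 := by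
  filter_upwards [hP.sub (1 / 64) (by positivity), small0 (s := 1 / 128) (by positivity)]
    with a h1 ⟨h2, h3⟩ v hv
  by_cases hn : ‖pt a v‖ ≤ 5 / 16
  · exact ⟨v, hv, .refl, by linarith⟩
  have hn := not_le.1 hn
  have n0 : 0 < ‖pt a v‖ := by linarith
  have key : ∀ t ∈ Set.Icc (5 / 16 / ‖pt a v‖) 1, ∀ x, ‖pt a x - (t : ℂ) * pt a v‖ ≤ 4 * a →
      x ∉ P a := by
    intro t ht x hx hxP
    obtain ⟨z, hz, h4⟩ := h1 x hxP
    have h5 : ‖z‖ < 1 / 4 := by simpa using hs hz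
    have h6 : 5 / 16 ≤ ‖(t : ℂ) * pt a v‖ := by
      rw [norm_mul, Complex.norm_real, Real.norm_of_nonneg ((by positivity : (0 : ℝ) ≤ _).trans ht.1)]
      exact (div_le_iff₀ n0).1 ht.1
    have h7 := norm_sub_le_norm_sub_add_norm_sub ((t : ℂ) * pt a v) (pt a x) z
    have h8 := norm_add_le ((t : ℂ) * pt a v - z) z
    rw [sub_add_cancel] at h8
    rw [norm_sub_rev _ (pt a x)] at h7
    linarith
  have t1 : 5 / 16 / ‖pt a v‖ ≤ 1 := (div_le_one n0).2 hn.le
  have e := rn_of (Q := (P a : Set Site)) (S := (fun t : ℝ => (t : ℂ) * pt a v) ''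
    Set.Icc (5 / 16 / ‖pt a v‖) 1) h2 (isPreconnected_Icc.image _ (by fun_prop))
    (by rintro _ ⟨t, ht, rfl⟩ x hx; exact key t ht x hx) ⟨1, ⟨t1, le_rfl⟩, rfl⟩
    ⟨_, ⟨le_rfl, t1⟩, rfl⟩
  simp only [Complex.ofReal_one, one_mul, fl_pt h2] at e
  have p1 := pt_fl_norm h2 (((5 / 16 / ‖pt a v‖ : ℝ) : ℂ) * pt a v)
  refine ⟨_, key _ ⟨le_rfl, t1⟩ _ (by linarith), e, ?_⟩
  have h8 := norm_add_le (pt a (fl a (((5 / 16 / ‖pt a v‖ : ℝ) : ℂ) * pt a v)) -
    ((5 / 16 / ‖pt a v‖ : ℝ) : ℂ) * pt a v) (((5 / 16 / ‖pt a v‖ : ℝ) : ℂ) * pt a v)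
  rw [sub_add_cancel, norm_mul, Complex.norm_real, Real.norm_of_nonneg (by positivity),
    div_mul_cancel₀ _ n0.ne'] at h8
  linarith

/-- Finitely many points represent the components of the complement. -/
theorem srep : SRep := by
  classical
  rintro D P hD ⟨hP, r, hr, hL⟩
  obtain ⟨κ, hκ, r₀, hr₀, hF⟩ := hD.fat
  obtain ⟨s, s0, s1, s2, s3⟩ : ∃ s > (0 : ℝ), s ≤ r₀ ∧ s ≤ r / 4 ∧ s ≤ 1 / 32 :=
    ⟨min r₀ (min (r / 4) (1 / 32)), by positivity, min_le_left _ _,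
      (min_le_right _ _).trans (min_le_left _ _), (min_le_right _ _).trans (min_le_right _ _)⟩
  have hK : IsCompact (closedBall (0 : ℂ) (3 / 8) ∩ Dᶜ) :=
    (isCompact_closedBall _ _).inter_right hD.op.isClosed_compl
  obtain ⟨Y, Y1, Y2⟩ := hK.elim_nhds_subcover (fun y => ball y s) fun y _ => ball_mem_nhds y s0
  have ex : ∀ y ∉ D, ∃ w, ‖w - y‖ ≤ s ∧ w ∉ closure D := fun y hy => by
    obtain ⟨w, w1, w2⟩ := hF y hy s s0 s1
    refine ⟨w, w1, fun hc => ?_⟩
    obtain ⟨u, u1, u2⟩ := Metric.mem_closure_iff.1 hc (κ * s) (by positivity)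
    exact w2 u (by rw [← dist_eq_norm, dist_comm]; exact u2.le) u1
  choose! w w1 w2 using ex
  have h1 : {x : ℂ | s ≤ infDist x Dᶜ} ⊆ D := fun x hx => by
    by_contra hc
    have : s ≤ infDist x Dᶜ := hx
    rw [infDist_zero_of_mem hc] at this
    linarith
  have h2 : IsCompact {x : ℂ | s ≤ infDist x Dᶜ} :=
    isCompact_of_isClosed_isBounded (isClosed_le continuous_const (continuous_infDist_pt _))
      (isBounded_ball.subset (h1.trans hD.small))
  have hne : Dᶜ.Nonempty := ⟨1, fun h' => by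
    have := hD.small h'
    norm_num at this⟩
  have hT : ∀ z ∈ Y.image w, z ∈ Ext D := by
    intro z hz
    obtain ⟨y, hy, rfl⟩ := Finset.mem_image.1 hz
    refine ⟨?_, w2 y (Y1 y hy).2⟩
    have e1 := norm_add_le (w y - y) y
    have e2 : ‖y‖ ≤ 3 / 8 := by simpa using (Y1 y hy).1
    rw [sub_add_cancel] at e1
    linarith [w1 y (Y1 y hy).2]
  have hout : ∀ᶠ a in 𝓝[>] (0 : ℝ), ∀ t ∈ Y.image w, fl a t ∉ P a :=
    (eventually_all_finset _).2 fun t ht => fl_out hP (hT t ht).2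
  refine ⟨Y.image w, hT, ?_⟩
  filter_upwards [hout, hL, inward hD.small hP, hP.cpt h2 h1, small0 (s := r / 8) (by positivity)]
    with a b1 b2 b3 b4 ⟨b5, b6⟩
  refine ⟨b1, fun v hv => ?_⟩
  obtain ⟨x, x1, x2, x3⟩ := b3 v hv
  obtain ⟨p, hp, c1⟩ := (infDist_lt_iff hne).1 (not_le.1 fun b => x1 (b4 x b))
  rw [dist_eq_norm] at c1
  have c2 : p ∈ closedBall (0 : ℂ) (3 / 8) := by
    rw [mem_closedBall_zero_iff]
    have := norm_sub_le (pt a x) (pt a x - p)
    rw [sub_sub_cancel] at this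
    linarith
  obtain ⟨y, hy, c3⟩ := Set.mem_iUnion₂.1 (Y2 ⟨c2, hp⟩)
  rw [mem_ball, dist_eq_norm] at c3
  have m := Finset.mem_image_of_mem w hy
  refine ⟨w y, m, x2.trans (b2 x x1 _ (b1 _ m) ?_)⟩
  have d1 := norm_sub_le_norm_sub_add_norm_sub (pt a x) p (pt a (fl a (w y)))
  have d2 := norm_sub_le_norm_sub_add_norm_sub p y (pt a (fl a (w y)))
  have d3 := norm_sub_le_norm_sub_add_norm_sub y (w y) (pt a (fl a (w y)))
  rw [norm_sub_rev y (w y), norm_sub_rev (w y) (pt _ _)] at d3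
  linarith [w1 y (Y1 y hy).2, pt_fl_norm b5 (w y)]

end Vale.Agent.P144Y.L
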